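import Vale.Agent.P366Y.G.Int
import Vale.Agent.P366Y.G.Fl.F0

/-!
# P366Y, block G (after P366Z): the invariants of the flow
-/

open MeasureTheory Metric Filter Topology Set
open scoped ContDiff ENNReal
open Vale.Agent.P366.Stmt

noncomputable section

namespace Vale.Agent.P366Z.Y

variable {n : ℕ}

theorem St.flat {B : Bg n} {U : E n → ℝ} {a β R s' : ℝ} (hB : B.Ok) (hS : St B U a β R s')
    {x : E n} (hx : R ≤ ‖x‖) : lap (eu n) U x = B.Q x * U x := by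
  rw [← hB.flat.lap_eq' (by linarith [hB.dim]) hB.met hS.sm (hS.Rρ.trans hx), hS.eqn x hx]

theorem Bg.Ok.Q_mul {B : Bg n} (hB : B.Ok) {x : E n} (hx : B.ρ ≤ ‖x‖) {t : ℝ} (h0 : 0 ≤ t)
    (h2 : t ≤ 2) : B.Q x * t ≤ 0 ∧ |B.Q x * t| ≤ 2 * B.δ * ‖x‖ ^ (-(n + 2) : ℝ) := by
  obtain ⟨q1, q2⟩ := hB.Qf x hx
  have h3 : B.Q x * t ≤ 0 := mul_nonpos_of_nonpos_of_nonneg q2 h0
  refine ⟨h3, ?_⟩
  rw [abs_of_nonpos h3]
  nlinarith

theorem Out.β_nonneg {B : Bg n} {L a β s' κ δ₀ η' ρ' η C βh R₁ : ℝ} {m U ψ h : E n → ℝ}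
    (hO : Out B L m U a β s' κ δ₀ η' ρ' η C ψ h βh R₁) (h1 : δ₀ ≤ 1) : 0 ≤ β := by
  have h2 := mul_le_mul_of_nonneg_left hO.le (sub_nonneg.2 h1)
  by_contra h3
  nlinarith [hO.mass, not_le.1 h3]

theorem mass_step {τ θ e a β βh : ℝ} (τ0 : 0 < τ) (τ1 : τ ≤ 1 / 2) (θ0 : 0 < θ) (θ1 : θ ≤ 1 / 8)
    (e0 : 0 < e) (e1 : e ≤ 2 * θ) (ha : 0 < a) (hβ : 0 ≤ β) (hm : 0 ≤ β + (1 - θ) * βh) :
    a * (1 - τ * (1 - e)) * (β * (1 + τ * e) - τ * βh) ≤
      Real.exp (6 * τ * θ) * (a * β) - τ * (a * (β + (1 - θ) * βh)) / 2 := by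
  set l := 1 - τ * (1 - e) with hl
  set M := β + (1 - θ) * βh with hM
  have h1 : 0 < 1 - θ := by linarith
  have l1 : 1 / 2 ≤ l := by nlinarith
  have e2 : β * (1 + τ * e) - τ * βh = β * (1 + τ * e + τ / (1 - θ)) - τ * M / (1 - θ) := by
    rw [hM]; field_simp; ring
  have h2 : 1 / (1 - θ) ≤ 1 + 2 * θ := by rw [div_le_iff₀ h1]; nlinarith
  have h3 : τ / (1 - θ) ≤ τ * (1 + 2 * θ) := by
    rw [div_eq_mul_one_div]; exact mul_le_mul_of_nonneg_left h2 τ0.le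
  have h4 : l ≤ Real.exp (-(τ * (1 - e))) := by
    have := Real.add_one_le_exp (-(τ * (1 - e))); linarith
  have h5 : 1 + τ * e + τ / (1 - θ) ≤ Real.exp (τ * e + τ * (1 + 2 * θ)) := by
    have := Real.add_one_le_exp (τ * e + τ * (1 + 2 * θ)); linarith
  have h6 : l * (1 + τ * e + τ / (1 - θ)) ≤ Real.exp (6 * τ * θ) := by
    refine (mul_le_mul h4 h5 (by positivity) (by positivity)).trans ?_
    rw [← Real.exp_add]
    exact Real.exp_le_exp.2 (by nlinarith)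
  have h7 : τ * M / 2 ≤ l * (τ * M / (1 - θ)) := by
    have : τ * M ≤ τ * M / (1 - θ) := le_div_self (by positivity) h1 (by linarith)
    nlinarith [mul_pos τ0 θ0, mul_nonneg τ0.le hm]
  rw [e2]
  have h8 := mul_le_mul_of_nonneg_left h6 (mul_nonneg ha.le hβ)
  have h9 := mul_le_mul_of_nonneg_left h7 ha.le
  nlinarith

namespace Pm

variable {P : Pm n} {d : ℕ → Dt n} {k K i : ℕ}

/-- the invariant -/
def Inv (P : Pm n) (d : ℕ → Dt n) (k : ℕ) : Prop :=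
  St P.B (P.U d k) (P.a k) (P.β d k) (P.R d k) (P.s k) ∧
    2 * (P.a k * P.β d k) ≤ P.μ * Real.exp (6 * P.τ * P.θ) ^ k

namespace Ok

variable (H : P.Ok)
include H

theorem E_ge : 1 ≤ Real.exp (6 * P.τ * P.θ) := by
  have := H.τ0; have := H.θ0
  exact Real.one_le_exp (by positivity)

theorem μE_le (hk : k ≤ P.N) : P.μ * Real.exp (6 * P.τ * P.θ) ^ k ≤ P.μ₁ :=
  (mul_le_mul_of_nonneg_left (pow_le_pow_right₀ H.E_ge hk) H.μ0.le).trans H.μ1

theorem inv_zero : P.Inv d 0 := by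
  have hB := H.hB
  refine ⟨⟨hB.smU, by simp [a], by simp [a], fun x => by simp [a, U], fun x => le_rfl,
    fun x => (hB.eqn x).le, fun x _ => hB.eqn x, by simpa [a, U, β] using H.asy, H.ρ_le_R 0,
    fun _ _ => rfl, H.s_lo (Nat.zero_le _), by simp [s]⟩, by simpa [a, β] using H.β0⟩

theorem U_anti (hI : ∀ j ≤ k, P.Inv d j) (h : i ≤ k) (x : E n) : P.U d k x ≤ P.U d i x := by
  induction k, h using Nat.le_induction with
  | base => exact le_rfl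
  | succ k hk ih =>
    refine le_trans ?_ (ih fun j hj => hI j (by omega))
    have h1 := (hI k (by omega)).1.pos H.hB x
    have h2 := mul_nonneg H.τ0.le (H.hf.nonneg' ((d k).h x))
    simp only [U]
    nlinarith

theorem β_nonneg (hG : P.Good d K) (hk : k < K) : 0 ≤ P.β d k :=
  (hG k hk).1.β_nonneg (by linarith [H.θ1])

theorem early {J : ℕ} {t C : ℝ} (hI : P.Inv d k) (hk : k ≤ J) (t0 : 0 < t) (h1 : t / 2 ≤ P.lam ^ J)
    (h2 : 4 / t ≤ C) (x : E n) : P.U d k x ≤ C * P.a k := by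
  have h3 : t / 2 ≤ P.a k := h1.trans (H.a_anti hk)
  refine (hI.1.le_two H.hB x).trans (le_trans ?_ (mul_le_mul h2 h3 (by positivity)
    (le_trans (by positivity) h2)))
  field_simp; norm_num

theorem lag_a {J : ℕ} {t : ℝ} (t0 : 0 < t) (h1 : t / 2 ≤ P.lam ^ J) (i : ℕ) :
    P.a i ≤ 2 / t * P.a (i + J) := by
  have : P.a (i + J) = P.a i * P.lam ^ J := pow_add _ _ _
  rw [this, div_mul_eq_mul_div, le_div_iff₀ t0]
  nlinarith [H.a_pos i]

theorem lag_r {J : ℕ} {t r : ℝ} (h1 : P.lam ^ J ≤ t) (hr : 0 ≤ r) (i : ℕ) :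
    r * P.a i ^ (-bb n) ≤ r * t ^ bb n * P.a (i + J) ^ (-bb n) := by
  rw [H.ab_add i J, mul_assoc, mul_comm (t ^ bb n)]
  have := H.a_pos (i + J)
  have := bb_pos H.dim
  have := pow_pos H.lam_pos J
  gcongr

theorem β_far (hI : P.Inv d i) (hi : i ≤ P.N) {x : E n} (hx : P.rs i ≤ ‖x‖) (h0 : 0 ≤ P.β d i) :
    P.β d i * ‖x‖ ^ (2 - n : ℝ) ≤ P.a i := by
  have h1 := H.a_pos i
  have h2 := H.rs_pos i
  have h3 : ‖x‖ ^ (2 - n : ℝ) ≤ P.rs i ^ (2 - n : ℝ) :=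
    Real.rpow_le_rpow_of_nonpos h2 hx (by linarith [nm2_pos H.dim])
  have μ1 : 0 < P.μ₁ := H.μ0.trans_le H.μ_le
  rw [show (2 - n : ℝ) = -(n - 2) by ring, Real.rpow_neg h2.le, H.rs_pow, inv_div] at h3
  rw [show (2 - n : ℝ) = -(n - 2) by ring]
  refine (mul_le_mul_of_nonneg_left h3 h0).trans ?_
  rw [← mul_div_assoc, div_le_iff₀ μ1]
  nlinarith [hI.2.trans (H.μE_le hi)]

theorem up1 (hG : P.Good d k) (hI : ∀ j ≤ k, P.Inv d j) (hk : k ≤ P.N) {x : E n}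
    (hx : P.rH k / 2 ≤ ‖x‖) : P.U d k x ≤ P.C' * P.a k := by
  obtain ⟨CH, t, hH, t0, t1, t2, c1, c2⟩ := H.u1a
  obtain ⟨J, j1, j2⟩ := exists_lag H.lam_half H.lam_lt t0 t1
  by_cases hJ : k ≤ J + 1
  · exact H.early (hI k le_rfl) hJ t0 j1 c2 x
  obtain ⟨i, rfl⟩ : ∃ i, k = i + (J + 1) := ⟨k - (J + 1), by omega⟩
  have hS := (hI i (by omega)).1
  have b0 := H.β_nonneg hG (show i < i + (J + 1) by omega)
  have r1 : 12 * P.rH i ≤ P.rH (i + (J + 1)) := by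
    have h1 := H.lag_r j2 H.rh_pos.le i
    have h2 : 0 ≤ P.rH (i + (J + 1)) := (H.rs_pos _).le.trans (H.rs_le _)
    unfold rH at *
    nlinarith
  have r2 := H.R_le (hG.mono (show i ≤ i + (J + 1) by omega))
  have r3 : 4 * P.R d i ≤ ‖x‖ := by linarith
  have r4 := H.hB.one.trans (H.ρ_le_R (d := d) i)
  have h1 := hH (P.U d i) _ _ (P.R d i) (2 * P.B.δ) r4 (H.a_pos i).le hS.sm (fun y hy => by
    have h2 := H.hB.Q_mul (hS.Rρ.trans hy) (hS.pos H.hB y).le (hS.le_two H.hB y)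
    rw [hS.flat H.hB hy]
    exact ⟨(hS.pos H.hB y).le, h2⟩) hS.asy x r3
  rw [abs_of_nonneg b0] at h1
  have h2 := H.β_far (hI i (by omega)) (by omega) (x := x)
    (by linarith [H.rs_le_R (d := d) i]) b0
  have h3 := H.lag_a t0 j1 i
  have h4 := H.src.trans (H.a_anti hk)
  have h5 := H.a_pos (i + (J + 1))
  have h6 : 0 ≤ P.a i + P.β d i * ‖x‖ ^ (2 - n : ℝ) + 2 * P.B.δ := by
    have := H.a_pos i; have := H.hB.δ0; positivity
  have h7 : P.a i + P.β d i * ‖x‖ ^ (2 - n : ℝ) + 2 * P.B.δ ≤ (4 / t + 1) * P.a (i + (J + 1)) := by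
    have : (4 / t + 1) * P.a (i + (J + 1)) =
        2 * (2 / t * P.a (i + (J + 1))) + P.a (i + (J + 1)) := by ring
    linarith
  calc _ ≤ P.U d i x := H.U_anti hI (by omega) x
    _ ≤ |CH| * ((4 / t + 1) * P.a (i + (J + 1))) :=
      h1.trans (mul_le_mul (le_abs_self _) h7 h6 (abs_nonneg _))
    _ ≤ _ := by rw [← mul_assoc]; exact mul_le_mul_of_nonneg_right c1 h5.le

theorem up2 (hG : P.Good d k) (hI : ∀ j ≤ k, P.Inv d j) (hk : k ≤ P.N) {x : E n}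
    (hx : P.rs k / 2 ≤ ‖x‖) : P.U d k x ≤ P.C₀ * P.a k := by
  obtain ⟨t, t0, t1, t2, c1, c2⟩ := H.u1b
  obtain ⟨J, j1, j2⟩ := exists_lag H.lam_half H.lam_lt t0 t1
  by_cases hJ : k ≤ J + 1
  · exact H.early (hI k le_rfl) hJ t0 j1 c2 x
  obtain ⟨i, rfl⟩ : ∃ i, k = i + (J + 1) := ⟨k - (J + 1), by omega⟩
  have r1 : P.rH i ≤ P.rs (i + (J + 1)) :=
    (H.lag_r j2 H.rh_pos.le i).trans
      (mul_le_mul_of_nonneg_right t2 (Real.rpow_pos_of_pos (H.a_pos _) _).le)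
  have h1 := H.up1 (hG.mono (show i ≤ i + (J + 1) by omega)) (fun j hj => hI j (by omega))
    (by omega) (x := x) (by linarith)
  have h5 := H.a_pos (i + (J + 1))
  calc _ ≤ P.U d i x := H.U_anti hI (by omega) x
    _ ≤ P.C' * (2 / t * P.a (i + (J + 1))) :=
      h1.trans (mul_le_mul_of_nonneg_left (H.lag_a t0 j1 i) H.C'_pos.le)
    _ = 2 * P.C' / t * P.a (i + (J + 1)) := by ring
    _ ≤ _ := mul_le_mul_of_nonneg_right c1 h5.le

theorem hlow (hL : HLOW) (hG : P.Good d (k + 1)) (hI : ∀ j ≤ k, P.Inv d j) (hk : k ≤ P.N)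
    {x : E n} (hx : P.R d (k + 1) ≤ ‖x‖) : 2 * P.θ ≤ (d k).h x := by
  have hS := (hI k le_rfl).1
  have hO := (hG k (by omega)).1
  set M := max (d k).R₁ (P.rs k) with hM
  have M0 : 0 < M := lt_max_of_lt_right (H.rs_pos k)
  have δ0 := H.δ0
  have δ1 := H.δ1
  have h1 : (1 + P.δ / 2) * M ≤ ‖x‖ := le_trans (mul_le_mul_of_nonneg_left
    (max_le_max (R₁_le_ϱ (by omega)) (H.rs_mono (by omega))) (by linarith)) hx
  have h2 : M ≤ ‖x‖ := le_trans (le_mul_of_one_le_left M0.le (by linarith)) h1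
  have x0 : 0 < ‖x‖ := M0.trans_le h2
  have h3 := hL n P.B _ _ _ _ _ _ _ _ _ _ _ _ _ _ _ _ _ M H.hB hS hO (le_max_left _ _) x h2
  have h4 : (M / ‖x‖) ^ (n - 2 : ℝ) ≤ 1 - P.δ / 3 := by
    have h5 : (M / ‖x‖) ^ (n - 2 : ℝ) ≤ (M / ‖x‖) ^ (1 : ℝ) :=
      Real.rpow_le_rpow_of_exponent_ge (by positivity) (div_le_one_of_le₀ h2 x0.le) (by
        have : (3 : ℝ) ≤ n := by exact_mod_cast H.dim
        linarith)
    rw [Real.rpow_one] at h5
    refine h5.trans ?_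
    rw [div_le_iff₀ x0]
    nlinarith [mul_le_mul_of_nonneg_left h1 (show 0 ≤ 1 - P.δ / 3 by linarith),
      mul_nonneg (mul_nonneg δ0.le (sub_nonneg.2 δ1)) M0.le]
  have h5 := H.up2 (hG.mono (by omega)) hI hk (x := x)
    (by linarith [le_max_right (d k).R₁ (P.rs k), H.rs_pos k])
  have a0 := H.a_pos k
  have h6 := (hO.h01 x).1
  have h7 : P.a k * (P.δ / 3) ≤ (d k).h x * (P.C₀ * P.a k) := by
    nlinarith [mul_le_mul_of_nonneg_left h5 h6.le, mul_le_mul_of_nonneg_left h4 a0.le]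
  have h8 : P.δ / 3 ≤ (d k).h x * P.C₀ := by
    by_contra h9
    nlinarith [not_le.1 h9]
  by_contra h9
  nlinarith [not_le.1 h9, H.hθ, H.C₀_ge]

theorem mass (hG : P.Good d (k + 1)) : P.a (k + 1) * P.β d (k + 1) ≤
    Real.exp (6 * P.τ * P.θ) * (P.a k * P.β d k) - P.τ * (P.a k * P.mt d k) / 2 := by
  rw [a_succ]
  exact mass_step H.τ0 H.τ1 H.θ0 H.θ1 H.e0 H.e1 (H.a_pos k) (H.β_nonneg hG (by omega))
    (hG k (by omega)).1.mass

theorem amt_nonneg (hG : P.Good d K) (hk : k < K) : 0 ≤ P.a k * P.mt d k :=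
  mul_nonneg (H.a_pos k).le (hG k hk).1.mass

theorem inv (hU : UPD) (hL : HLOW) (hG : P.Good d k) (hk : k ≤ P.N) : ∀ j ≤ k, P.Inv d j := by
  induction k with
  | zero => intro j hj; rw [Nat.le_zero.1 hj]; exact H.inv_zero
  | succ k ih =>
    have hI := ih (hG.mono (by omega)) (by omega)
    intro j hj
    rcases Nat.le_succ_iff.1 hj with h | rfl
    · exact hI j h
    refine ⟨?_, ?_⟩
    · rw [a_succ, s_succ]
      exact hU n P.B _ _ _ _ _ _ _ _ _ _ _ _ _ _ _ _ _ _ _ P.τ (P.R d (k + 1)) H.hB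
        (hI k le_rfl).1 (hG k (by omega)).1 H.hf H.θ0 (by linarith [H.θ1]) ⟨H.τ0, H.τ1⟩
        H.ρ'_mem.1.le (by rw [← s_succ]; exact H.s_lo hk) (H.R_mono (by omega))
        ((R₁_le_ϱ (by omega)).trans ((le_max_left _ _).trans (H.max_le_R _)))
        fun x hx => H.hlow hL hG hI (by omega) hx
    · have h1 := H.mass hG
      have h2 := mul_nonneg H.τ0.le (H.amt_nonneg hG (show k < k + 1 by omega))
      have h3 := mul_le_mul_of_nonneg_left (hI k le_rfl).2 (zero_le_one.trans H.E_ge)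
      rw [pow_succ]
      nlinarith

/-- the total loss of mass is bounded -/
theorem sum_mt (hG : P.Good d (K + 1)) (hK : K ≤ P.N) :
    ∑ k ∈ Finset.range K, P.τ * (P.a k * P.mt d k) ≤ 2 * P.μ := by
  set Ex := Real.exp (6 * P.τ * P.θ) with hE
  have E1 : 1 ≤ Ex := H.E_ge
  have key : ∀ k ≤ K, P.a k * P.β d k + (∑ j ∈ Finset.range k, P.τ * (P.a j * P.mt d j)) / 2 ≤
      P.μ / 2 * Ex ^ k := by
    intro k hk
    induction k with
    | zero => simp [a, β]; linarith [H.β0]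
    | succ k ih =>
      have h1 := H.mass (hG.mono (show k + 1 ≤ K + 1 by omega))
      have h2 := mul_le_mul_of_nonneg_left (ih (by omega)) (zero_le_one.trans E1)
      have h3 : 0 ≤ ∑ j ∈ Finset.range k, P.τ * (P.a j * P.mt d j) :=
        Finset.sum_nonneg fun j hj => mul_nonneg H.τ0.le
          (H.amt_nonneg hG (by have := Finset.mem_range.1 hj; omega))
      rw [Finset.sum_range_succ, pow_succ]
      nlinarith
  have h1 := key K le_rfl
  have h2 := mul_nonneg (H.a_pos K).le (H.β_nonneg hG (show K < K + 1 by omega))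
  linarith [H.μE_le hK, H.μ2]

end Ok

end Pm

end Vale.Agent.P366Z.Y
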