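import Vale.Agent.P366Y.G.Int
import Vale.Agent.P366Y.G.Fl.F2

/-!
# P366Y, block G (after P366Z): the sharp upper bound of the conformal factor
-/

open MeasureTheory Metric Filter Topology Set
open scoped ContDiff ENNReal
open Vale.Agent.P366.Stmt

noncomputable section

namespace Vale.Agent.P366Z.Y

variable {n : ℕ}

/-- the conclusion of `STAB` -/
def StabC (n : ℕ) (C₀ δ η e : ℝ) : Prop :=
  ∀ (v : E n → ℝ) (a β R S : ℝ), 1 ≤ R → 0 < a → Smooth v → S ≤ e * a →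
    (∀ x, R ≤ ‖x‖ → a / 8 ≤ v x ∧ v x ≤ C₀ * a ∧ |lap (eu n) v x| ≤ S * ‖x‖ ^ (-(n + 2) : ℝ)) →
    Asy v a β → Par v R (e * a ^ (-bb n) * R ^ (n - 2 : ℝ)) →
    ∀ x, (1 + δ) * R ≤ ‖x‖ → |v x - a| ≤ η * a

/-- the conclusion of `NEWT` -/
def NewtC (n : ℕ) (C : ℝ) : Prop := ∀ (v : E n → ℝ) (a R M S : ℝ), 1 ≤ R → Smooth v →
  (∀ x, R ≤ ‖x‖ → |v x - a| ≤ M ∧ |lap (eu n) v x| ≤ S * ‖x‖ ^ (-(n + 2) : ℝ)) →
  Tendsto v (cocompact (E n)) (𝓝 a) → ∃ β, Asy v a β ∧ ∀ x, 4 * R ≤ ‖x‖ →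
    |v x - a - β * ‖x‖ ^ (2 - n : ℝ)| ≤ C * (M + S) * (R / ‖x‖) ^ (n - 1 : ℝ)

theorem z_step {τ θ e a U h Z w : ℝ} (τ0 : 0 < τ) (τ1 : τ ≤ 1 / 2) (θ0 : 0 < θ) (θ1 : θ ≤ 1 / 8)
    (e0 : 0 < e) (e1 : e ≤ 2 * θ) (ha : 0 < a) (Z0 : 0 ≤ Z) (w0 : 0 ≤ w) (hZ : a * (U - a) ≤ Z)
    (hw : (1 / 2 * a + (1 - θ) / 2 * a) - U * (1 + (1 - θ) * h) / 2 ≤ w) :
    a * (1 - τ * (1 - e)) * (U * (1 - τ * (h - e)) - a * (1 - τ * (1 - e))) ≤
      Real.exp (6 * τ * θ) * Z + 3 * τ * a * w := by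
  set l := 1 - τ * (1 - e) with hl
  have h1 : 0 < 1 - θ := by linarith
  have l1 : 1 / 2 ≤ l := by nlinarith
  have l2 : l ≤ 1 := by nlinarith
  have h2 : 1 / (1 - θ) ≤ 1 + 2 * θ := by rw [div_le_iff₀ h1]; nlinarith
  have h3 : τ / (1 - θ) ≤ τ * (1 + 2 * θ) := by
    rw [div_eq_mul_one_div]; exact mul_le_mul_of_nonneg_left h2 τ0.le
  have h4 : l ≤ Real.exp (-(τ * (1 - e))) := by
    have := Real.add_one_le_exp (-(τ * (1 - e))); linarith
  have h5 : 1 + τ * e + τ / (1 - θ) ≤ Real.exp (τ * e + τ * (1 + 2 * θ)) := by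
    have := Real.add_one_le_exp (τ * e + τ * (1 + 2 * θ)); linarith
  have h6 : l * (1 + τ * e + τ / (1 - θ)) ≤ Real.exp (6 * τ * θ) := by
    refine (mul_le_mul h4 h5 (by positivity) (by positivity)).trans ?_
    rw [← Real.exp_add]
    exact Real.exp_le_exp.2 (by nlinarith)
  have e2 : a * l * (U * (1 - τ * (h - e)) - a * l) =
      l * (1 + τ * e + τ / (1 - θ)) * (a * (U - a)) + 2 * (l * (τ / (1 - θ))) * a *
        ((1 / 2 * a + (1 - θ) / 2 * a) - U * (1 + (1 - θ) * h) / 2) := by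
    rw [hl]; field_simp; ring
  have h7 : 2 * (l * (τ / (1 - θ))) ≤ 3 * τ := by
    have := mul_le_mul l2 h3 (by positivity) zero_le_one
    nlinarith
  have h8 := (mul_le_mul_of_nonneg_left hZ (show 0 ≤ l * (1 + τ * e + τ / (1 - θ)) by
    positivity)).trans (mul_le_mul_of_nonneg_right h6 Z0)
  have h9 := (mul_le_mul_of_nonneg_left hw (show 0 ≤ 2 * (l * (τ / (1 - θ))) * a by
    positivity)).trans (mul_le_mul_of_nonneg_right (mul_le_mul_of_nonneg_right h7 ha.le) w0)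
  rw [e2]
  linarith

namespace Pm

variable {P : Pm n} {d : ℕ → Dt n} {k K i : ℕ}

/-- the factor of the outer sheet -/
def v (P : Pm n) (d : ℕ → Dt n) (k : ℕ) (x : E n) : ℝ :=
  P.U d k x * (1 + (1 - P.θ) * (d k).h x) / 2

/-- the relations that give the sharp bound -/
structure Sh (P : Pm n) (CN η₁ η₂ eS e' t T₁ σ : ℝ) : Prop where
  stab : StabC n (2 * P.C₀) (P.δ / 4) η₂ eS
  newt : NewtC n CN
  e0 : 0 < e'
  C0 : 0 < P.C
  he : 4 * P.C * e' ≤ eS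
  src : 4 * P.B.δ ≤ eS * P.a P.N
  η0 : 0 < η₂
  t0 : 0 < t
  t1 : 6 * P.rh * t ^ bb n ≤ P.r₀
  t2 : 4 * (|CN| * (P.C₀ + 1) * (3 / 2 * (P.rh / P.r₀)) ^ (n - 1 : ℝ) * t ^ bb n) ≤ η₁
  t3 : 48 * (T₁ * η₂ + σ / e') ≤ η₁ * t ^ 2

namespace Ok

variable (H : P.Ok) {CN η₁ η₂ eS e' t T₁ σ : ℝ}
include H

theorem stab (hA : ASY) (S : P.Sh CN η₁ η₂ eS e' t T₁ σ) (hG : P.Good d (k + 1))
    (hI : ∀ j ≤ k, P.Inv d j) (hk : k ≤ P.N) (hm : P.a k * P.mt d k ≤ e' * P.μ) {x : E n}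
    (hx : (1 + P.δ / 4) * P.R d (k + 1) ≤ ‖x‖) :
    |P.v d k x - (1 / 2 * P.a k + (1 - P.θ) / 2 * P.a k)| ≤ η₂ * P.a k := by
  have hS := (hI k le_rfl).1
  have hO := (hG k (by omega)).1
  have hB := H.hB
  have a0 := H.a_pos k
  have θ0 := H.θ0
  have θ1 := H.θ1
  have hhU : Smooth fun x => (d k).h x * P.U d k x := ContDiff.mul hO.sm hS.sm
  have sk : Smooth fun x => (1 - P.θ) / 2 * (d k).h x + 1 / 2 :=
    (contDiff_const.mul hO.sm).add contDiff_const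
  have ev : P.v d k = fun x => P.U d k x * ((1 - P.θ) / 2 * (d k).h x + 1 / 2) :=
    funext fun x => by unfold v; ring
  have s1 : Smooth (P.v d k) := by rw [ev]; exact ContDiff.mul hS.sm sk
  have A1 := (hA n _ _ _ _ _ _ H.dim hS.sm hhU hS.asy).2.2.1 (1 / 2) ((1 - P.θ) / 2) hO.asy
  have e1 : (fun x => 1 / 2 * P.U d k x + (1 - P.θ) / 2 * ((d k).h x * P.U d k x)) = P.v d k :=
    funext fun x => by unfold v; ring
  rw [e1] at A1
  set av := 1 / 2 * P.a k + (1 - P.θ) / 2 * P.a k with hav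
  have av1 : P.a k / 2 ≤ av := by nlinarith
  have av2 : av ≤ P.a k := by nlinarith
  have eS0 : 0 < eS := lt_of_lt_of_le (by have := S.e0; have := S.C0; positivity) S.he
  have R1 : (d k).R₁ ≤ P.R d (k + 1) :=
    (R₁_le_ϱ (by omega)).trans ((le_max_left _ _).trans (H.max_le_R _))
  have R2 : P.R d k ≤ P.R d (k + 1) := H.R_mono (by omega)
  have R3 : P.rs k ≤ P.R d (k + 1) := (H.rs_le_R k).trans R2
  have rs0 := H.rs_pos k
  have key := S.stab (P.v d k) av _ (P.R d (k + 1)) (2 * P.B.δ) (hB.one.trans (H.ρ_le_R _))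
    (by linarith) s1 (by
      have := mul_le_mul_of_nonneg_left ((H.a_anti hk).trans (show P.a k ≤ 2 * av by linarith))
        eS0.le
      linarith [S.src]) (fun y hy => by
      have u1 := hS.half hB y
      have u2 := hS.le_two hB y
      have u3 := H.up2 (hG.mono (by omega)) hI hk (x := y) (by linarith)
      obtain ⟨q0, q1⟩ := hO.h01 y
      have q2 : 0 ≤ (1 - P.θ) * (d k).h y := mul_nonneg (by linarith) q0.le
      have q3 : (1 - P.θ) * (d k).h y ≤ 1 := by nlinarith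
      have v1 : P.U d k y / 2 ≤ P.v d k y := by unfold v; nlinarith
      have v2 : P.v d k y ≤ P.U d k y := by unfold v; nlinarith
      refine ⟨by linarith, by nlinarith [H.C₀_ge], ?_⟩
      have ρy := (H.ρ_le_R (d := d) (k + 1)).trans hy
      have l1 : lap (eu n) (P.v d k) y = P.B.Q y * P.v d k y := by
        rw [← hB.flat.lap_eq' (by linarith [H.dim]) hB.met s1 ρy, ev,
          hB.met.lap_mul_wl (hS.sm.c2 y) (sk.c2 y) (hS.pos hB y).ne', wl_affine,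
          hO.harm y (R1.trans hy), hS.eqn y (R2.trans hy)]
        ring
      rw [l1]
      exact (hB.Q_mul ρy (by linarith) (by linarith)).2) A1 (by
      have b0 : 0 < P.a k ^ (-bb n) := by positivity
      have μ0 := H.μ0
      refine ((hO.par (eS * P.a k ^ (-bb n) * (P.μ / (4 * P.a k ^ 2)))
        (by positivity)).mono_R R1).mono ?_
      have p1 : P.a k ^ (-bb n) ≤ av ^ (-bb n) :=
        Real.rpow_le_rpow_of_nonpos (by linarith) av2 (by linarith [bb_pos H.dim])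
      have p2 : P.μ / (2 * P.a k ^ 2) ≤ P.R d (k + 1) ^ (n - 2 : ℝ) := by
        refine le_trans ?_ (Real.rpow_le_rpow rs0.le R3 (nm2_pos H.dim).le)
        rw [H.rs_pow]; gcongr; exact H.μ_le
      have p3 : eS * P.a k ^ (-bb n) * (P.μ / (2 * P.a k ^ 2)) ≤
          eS * av ^ (-bb n) * P.R d (k + 1) ^ (n - 2 : ℝ) :=
        mul_le_mul (mul_le_mul_of_nonneg_left p1 eS0.le) p2 (by positivity)
          (mul_nonneg eS0.le (b0.le.trans p1))
      have p4 : P.C * (P.β d k + (1 - P.θ) * (d k).βh) * P.a k ^ (-bb n - 1) =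
          P.a k ^ (-bb n) / (4 * P.a k ^ 2) * (4 * P.C * (P.a k * P.mt d k)) := by
        rw [Real.rpow_sub_one a0.ne']; unfold mt; field_simp
      have p5 : 4 * P.C * (P.a k * P.mt d k) ≤ eS * P.μ := by
        have := mul_le_mul_of_nonneg_left hm (show 0 ≤ 4 * P.C by linarith [S.C0])
        nlinarith [S.he]
      have p6 := mul_le_mul_of_nonneg_left p5
        (show 0 ≤ P.a k ^ (-bb n) / (4 * P.a k ^ 2) by positivity)
      have p7 : eS * P.a k ^ (-bb n) * (P.μ / (2 * P.a k ^ 2)) =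
          P.a k ^ (-bb n) / (4 * P.a k ^ 2) * (eS * P.μ) +
            eS * P.a k ^ (-bb n) * (P.μ / (4 * P.a k ^ 2)) := by ring
      linarith) x hx
  exact key.trans (mul_le_mul_of_nonneg_left av2 S.η0.le)

theorem start (hA : ASY) (hN : NewtC n CN) (hG : P.Good d i) (hI : ∀ j ≤ i, P.Inv d j)
    (hi : i ≤ P.N) {x : E n} (hx : 4 * P.R d i ≤ ‖x‖) : P.U d i x - P.a i ≤
      P.β d i * ‖x‖ ^ (2 - n : ℝ) + |CN| * (P.C₀ + 1) * P.a i * (P.R d i / ‖x‖) ^ (n - 1 : ℝ) := by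
  have hS := (hI i le_rfl).1
  have hB := H.hB
  have a0 := H.a_pos i
  have R1 := hB.one.trans (H.ρ_le_R (d := d) i)
  obtain ⟨β', h1, h2⟩ := hN (P.U d i) (P.a i) (P.R d i) (P.C₀ * P.a i) (2 * P.B.δ) R1 hS.sm
    (fun y hy => by
      have u1 := hS.pos hB y
      have u3 := H.up2 hG hI hi (x := y) (by linarith [H.rs_le_R (d := d) i, H.rs_pos i])
      rw [hS.flat hB hy]
      exact ⟨abs_le.2 ⟨by nlinarith [H.C₀_ge], by linarith⟩,
        (hB.Q_mul (hS.Rρ.trans hy) u1.le (hS.le_two hB y)).2⟩)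
    (hA n _ _ _ 0 _ 0 H.dim hS.sm hS.sm hS.asy).1.1
  rw [← ((hA n _ _ _ _ _ _ H.dim hS.sm hS.sm hS.asy).2.1 h1).2] at h2
  have h3 := (abs_le.1 (h2 x hx)).2
  have h4 : CN * (P.C₀ * P.a i + 2 * P.B.δ) ≤ |CN| * (P.C₀ + 1) * P.a i := by
    rw [mul_assoc]
    refine mul_le_mul (le_abs_self _) ?_ ?_ (abs_nonneg _)
    · linarith [H.src.trans (H.a_anti hi)]
    · have := hB.δ0; have := H.C₀_ge; positivity
  have h5 := mul_le_mul_of_nonneg_right h4 (Real.rpow_nonneg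
    (div_nonneg (zero_le_one.trans R1) (norm_nonneg x)) (n - 1 : ℝ))
  linarith

theorem window (hA : ASY) (hL : HLOW) (S : P.Sh CN η₁ η₂ eS e' t T₁ σ) {M : ℕ}
    (hG : P.Good d (i + M)) (hI : ∀ j ≤ i + M, P.Inv d j) (hk : i + M ≤ P.N) {x : E n}
    (hx : (1 + P.δ / 4) * P.R d (i + M) ≤ ‖x‖) {Z : ℝ} (Z0 : 0 ≤ Z)
    (hZ : P.a i * (P.U d i x - P.a i) ≤ Z) :
    P.a (i + M) * (P.U d (i + M) x - P.a (i + M)) ≤ Real.exp (6 * P.τ * P.θ) ^ M *
      (Z + 3 * P.a i ^ 2 * (M * P.τ * η₂ + (∑ j ∈ Finset.range M,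
        P.τ * (P.a (i + j) * P.mt d (i + j))) / (e' * P.μ))) := by
  induction M with
  | zero => simpa using hZ
  | succ M ih =>
    have R0 : 0 ≤ P.R d (i + (M + 1)) := (H.rs_pos _).le.trans (H.rs_le_R _)
    have δ0 := H.δ0
    have h1 := ih (hG.mono (by omega)) (fun j hj => hI j (by omega)) (by omega)
      (le_trans (mul_le_mul_of_nonneg_left (H.R_mono (by omega)) (by positivity)) hx)
    set k := i + M with hk'
    have hG' : P.Good d (k + 1) := hG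
    have hI' : ∀ j ≤ k, P.Inv d j := fun j hj => hI j (by omega)
    have a0 := H.a_pos k
    have em : 0 < e' * P.μ := mul_pos S.e0 H.μ0
    have m0 := H.amt_nonneg hG' (show k < k + 1 by omega)
    have hh := H.hlow hL hG' hI' (by omega) (x := x)
      (le_trans (le_mul_of_one_le_left R0 (by linarith)) hx)
    have η0 := S.η0
    have hw : (1 / 2 * P.a k + (1 - P.θ) / 2 * P.a k) - P.v d k x ≤
        P.a k * (η₂ + P.a k * P.mt d k / (e' * P.μ)) := by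
      by_cases hm : P.a k * P.mt d k ≤ e' * P.μ
      · have h2 := (abs_le.1 (H.stab hA S hG' hI' (by omega) hm hx)).1
        have h3 : 0 ≤ P.a k * (P.a k * P.mt d k / (e' * P.μ)) := by positivity
        linarith
      · have h2 : 1 ≤ P.a k * P.mt d k / (e' * P.μ) := by
          rw [le_div_iff₀ em]; linarith
        have h3 : 0 ≤ P.v d k x := by
          have := (hI' k le_rfl).1.pos H.hB x
          have := ((hG' k (by omega)).1.h01 x).1
          have : 0 < 1 - P.θ := by linarith [H.θ1]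
          unfold v; positivity
        nlinarith [H.θ0]
    have s0 : 0 ≤ ∑ j ∈ Finset.range M, P.τ * (P.a (i + j) * P.mt d (i + j)) :=
      Finset.sum_nonneg fun j hj => mul_nonneg H.τ0.le
        (H.amt_nonneg hG (by have := Finset.mem_range.1 hj; omega))
    have τ0 := H.τ0
    have h2 := z_step H.τ0 H.τ1 H.θ0 H.θ1 H.e0 H.e1 a0 (by positivity) (by positivity) h1 hw
    have e1 : P.U d (i + (M + 1)) x = P.U d k x * (1 - P.τ * ((d k).h x - P.e₂)) := by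
      rw [← H.hf.lin _ hh]; rfl
    have e2 : P.a (i + (M + 1)) = P.a k * (1 - P.τ * (1 - P.e₂)) := a_succ k
    rw [e1, e2, Finset.sum_range_succ]
    refine h2.trans ?_
    have h3 : P.a k ^ 2 ≤ P.a i ^ 2 := pow_le_pow_left₀ a0.le (H.a_anti (by omega)) 2
    have h4 : 1 ≤ Real.exp (6 * P.τ * P.θ) ^ (M + 1) := one_le_pow₀ H.E_ge
    have h5 : 3 * P.τ * P.a k * (P.a k * (η₂ + P.a k * P.mt d k / (e' * P.μ))) ≤
        Real.exp (6 * P.τ * P.θ) ^ (M + 1) *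
          (3 * P.a i ^ 2 * (P.τ * η₂ + P.τ * (P.a k * P.mt d k) / (e' * P.μ))) := by
      refine le_trans ?_ (le_mul_of_one_le_left (by positivity) h4)
      have : 3 * P.τ * P.a k * (P.a k * (η₂ + P.a k * P.mt d k / (e' * P.μ))) =
          3 * P.a k ^ 2 * (P.τ * η₂ + P.τ * (P.a k * P.mt d k) / (e' * P.μ)) := by ring
      rw [this]; gcongr
    refine (add_le_add le_rfl h5).trans (le_of_eq ?_)
    push_cast
    ring

theorem lag_R (S : P.Sh CN η₁ η₂ eS e' t T₁ σ) {M : ℕ} (hG : P.Good d i) (j2 : P.lam ^ M ≤ t) :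
    4 * P.R d i ≤ P.rs (i + M) := by
  have h1 := H.lag_r j2 H.rh_pos.le i
  have h2 := H.R_le hG
  have h3 := mul_le_mul_of_nonneg_right S.t1 (Real.rpow_pos_of_pos (H.a_pos (i + M)) (-bb n)).le
  unfold rH at h2
  unfold rs
  linarith

set_option maxHeartbeats 1000000 in
theorem sharp (hA : ASY) (hL : HLOW) (S : P.Sh CN η₁ η₂ eS e' t T₁ σ) {M : ℕ}
    (hG : P.Good d (i + M + 1)) (hI : ∀ j ≤ i + M, P.Inv d j) (hk : i + M ≤ P.N)
    (j1 : t / 2 ≤ P.lam ^ M) (j2 : P.lam ^ M ≤ t) (hT : M * P.τ ≤ T₁)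
    (hσ : ∑ j ∈ Finset.range M, P.τ * (P.a (i + j) * P.mt d (i + j)) ≤ σ * P.μ) {x : E n}
    (hx : (1 + P.δ / 4) * P.R d (i + M) ≤ ‖x‖) :
    P.U d (i + M) x ≤ P.a (i + M) * (1 + (P.rs (i + M) / ‖x‖) ^ (n - 2 : ℝ) + η₁) := by
  have hn := H.dim
  have r0 := H.rs_pos (i + M)
  have δ0 := H.δ0
  have x1 : P.rs (i + M) ≤ ‖x‖ := (H.rs_le_R _).trans
    (le_trans (le_mul_of_one_le_left (r0.le.trans (H.rs_le_R _)) (by linarith)) hx)
  have x0 : 0 < ‖x‖ := r0.trans_le x1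
  have hGi : P.Good d i := hG.mono (by omega)
  have h1 := H.start hA S.newt hGi (fun j hj => hI j (by omega)) (by omega)
    ((H.lag_R S hGi j2).trans x1)
  have ai := H.a_pos i
  have ak := H.a_pos (i + M)
  have b0 := H.β_nonneg hG (show i < i + M + 1 by omega)
  have C0 : 0 < P.C₀ + 1 := by linarith [H.C₀_ge]
  have R0 : 0 ≤ P.R d i := (H.rs_pos _).le.trans (H.rs_le_R _)
  have h2 := H.window hA hL S (hG.mono (by omega)) hI hk hx (by positivity)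
    (mul_le_mul_of_nonneg_left h1 ai.le)
  set Ex := Real.exp (6 * P.τ * P.θ) ^ M with hEx
  have Ex0 : 0 ≤ Ex := by positivity
  have μ0 := H.μ0
  have Ex2 : Ex ≤ 2 := by
    have := (H.μE_le (show M ≤ P.N by omega)).trans H.μ2
    by_contra h3
    nlinarith [not_le.1 h3]
  set l := P.lam ^ M with hl
  have l0 : 0 < l := pow_pos H.lam_pos M
  have e1 : P.a (i + M) = P.a i * l := pow_add _ _ _
  have m1 : Ex * (P.a i * P.β d i) * ‖x‖ ^ (2 - n : ℝ) ≤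
      P.a (i + M) ^ 2 * (P.rs (i + M) / ‖x‖) ^ (n - 2 : ℝ) := by
    have q1 := mul_le_mul_of_nonneg_left (hI i (by omega)).2 Ex0
    have q2 := H.μE_le hk
    rw [pow_add, ← hEx] at q2
    rw [Real.div_rpow r0.le x0.le, H.rs_pow, show (2 - n : ℝ) = -(n - 2) by ring,
      Real.rpow_neg x0.le, div_eq_mul_inv _ (‖x‖ ^ _), ← mul_assoc (P.a (i + M) ^ 2)]
    refine mul_le_mul_of_nonneg_right ?_ (inv_nonneg.2 (Real.rpow_nonneg x0.le _))
    have : P.a (i + M) ^ 2 * (P.μ₁ / (2 * P.a (i + M) ^ 2)) = P.μ₁ / 2 := by field_simp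
    rw [this]; linarith
  have r00 := H.r0
  have rh0 := H.rh_pos
  have m2 : P.a i ^ 2 * (P.R d i / ‖x‖) ^ (n - 1 : ℝ) ≤
      P.a (i + M) ^ 2 * ((3 / 2 * (P.rh / P.r₀)) ^ (n - 1 : ℝ) * t ^ bb n) := by
    have q1 : P.R d i / ‖x‖ ≤ 3 / 2 * (P.rh / P.r₀) * l ^ bb n := by
      rw [div_le_iff₀ x0]
      refine (H.R_le hGi).trans (le_trans (le_of_eq ?_)
        (mul_le_mul_of_nonneg_left x1 (by positivity)))
      unfold rH rs
      rw [H.ab_add i M, ← hl]; field_simp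
    have q2 := Real.rpow_le_rpow (by positivity) q1 (show (0 : ℝ) ≤ n - 1 by
      linarith [nm2_pos hn])
    rw [Real.mul_rpow (by positivity) (by positivity), ← Real.rpow_mul l0.le,
      show bb n * (n - 1 : ℝ) = (2 : ℕ) + bb n by
        linarith [n_bb hn, show ((2 : ℕ) : ℝ) = 2 by simp], Real.rpow_add l0,
      Real.rpow_natCast] at q2
    have q3 : l ^ bb n ≤ t ^ bb n := Real.rpow_le_rpow l0.le j2 (bb_pos hn).le
    refine (mul_le_mul_of_nonneg_left q2 (sq_nonneg _)).trans ?_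
    rw [e1]
    have : P.a i ^ 2 * ((3 / 2 * (P.rh / P.r₀)) ^ (n - 1 : ℝ) * (l ^ 2 * l ^ bb n)) =
        (P.a i * l) ^ 2 * ((3 / 2 * (P.rh / P.r₀)) ^ (n - 1 : ℝ) * l ^ bb n) := by ring
    rw [this]; gcongr
  have m3 : 3 * P.a i ^ 2 * (M * P.τ * η₂ + (∑ j ∈ Finset.range M,
      P.τ * (P.a (i + j) * P.mt d (i + j))) / (e' * P.μ)) ≤ P.a (i + M) ^ 2 * (η₁ / 4) := by
    have q1 : (∑ j ∈ Finset.range M, P.τ * (P.a (i + j) * P.mt d (i + j))) / (e' * P.μ) ≤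
        σ / e' := by
      have := S.e0
      rw [div_le_div_iff₀ (by positivity) this]; nlinarith
    have q2 := mul_le_mul_of_nonneg_right hT S.η0.le
    have q3 : (t / 2) ^ 2 ≤ l ^ 2 := pow_le_pow_left₀ (half_pos S.t0).le j1 2
    have q4 : 0 ≤ η₁ := le_trans (by have := S.t0; positivity) S.t2
    have q5 : 3 * (T₁ * η₂ + σ / e') ≤ l ^ 2 * (η₁ / 4) := by nlinarith [S.t3]
    rw [e1]
    calc _ ≤ 3 * P.a i ^ 2 * (T₁ * η₂ + σ / e') := by gcongr
      _ = P.a i ^ 2 * (3 * (T₁ * η₂ + σ / e')) := by ring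
      _ ≤ P.a i ^ 2 * (l ^ 2 * (η₁ / 4)) := by gcongr
      _ = _ := by ring
  have m4 : |CN| * (P.C₀ + 1) * (P.a i ^ 2 * (P.R d i / ‖x‖) ^ (n - 1 : ℝ)) ≤
      P.a (i + M) ^ 2 * (η₁ / 4) := by
    refine (mul_le_mul_of_nonneg_left m2 (by positivity)).trans ?_
    nlinarith [mul_le_mul_of_nonneg_left S.t2 (sq_nonneg (P.a (i + M)))]
  have m5 : 0 ≤ P.a (i + M) ^ 2 * (η₁ / 4) := le_trans (by positivity) m4
  have m6 := (mul_le_mul_of_nonneg_left (add_le_add m4 m3) Ex0).trans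
    (mul_le_mul_of_nonneg_right Ex2 (add_nonneg m5 m5))
  refine le_of_mul_le_mul_left ?_ ak
  linarith only [m6, m1, h2]

end Ok

end Pm

end Vale.Agent.P366Z.Y
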